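import Mathlib

/-!
# Row 265 (Bloch), core definitions

One polynomial ring `R`, one grading group `D`, one semilinear automorphism `gam`.
* spaces `Spc` = closed torus-stable point sets in a product of projective spaces (blocks of variables);
* the only morphisms are coordinate projections `Proj Y X` (closed embeddings included);
* `GM` = noetherian graded `R`-modules, `G X` = Grothendieck group of modules supported on `X`
  modulo irrelevant modules;
* `Bun X` = algebraic families of subspaces, `K X` = their Grothendieck group;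
* tangent spaces, local dimension, smoothness, the cone condition.
-/

set_option autoImplicit false
noncomputable section
open MvPolynomial

namespace Crest.Agent.N265

/-- variables: (block, index, T-weight) -/
abbrev Var : Type := ℕ × ℕ × ℤ
abbrev R : Type := MvPolynomial Var ℂ
abbrev Pt : Type := Var → ℂ
/-- degrees: `some b` = degree in block `b`, `none` = T-weight -/
abbrev D : Type := Option ℕ →₀ ℤ

def eB (b : ℕ) : D := Finsupp.single (some b) 1
def eT : D := Finsupp.single none 1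
/-- degree of a variable -/
def vdeg (v : Var) : D := eB v.1 + v.2.2 • eT

/-- the degrees living in the blocks `B` (and `T`) -/
def DS (B : Finset ℕ) : AddSubgroup D where
  carrier := {d | ∀ b ∉ B, d (some b) = 0}
  add_mem' := by intro a b ha hb c hc; simp [ha c hc, hb c hc]
  zero_mem' := by intro c _; rfl
  neg_mem' := by intro a ha c hc; simp [ha c hc]

lemma mem_DS {B : Finset ℕ} {d : D} : d ∈ DS B ↔ ∀ b ∉ B, d (some b) = 0 := Iff.rfl
lemma DS_mono {B B' : Finset ℕ} (h : B ⊆ B') : DS B ≤ DS B' :=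
  fun _ hd b hb => hd b (fun h' => hb (h h'))
lemma eT_mem (B : Finset ℕ) : eT ∈ DS B := by intro b _; simp [eT]
lemma eB_mem {B : Finset ℕ} {b : ℕ} (h : b ∈ B) : eB b ∈ DS B := by
  intro c hc
  have : c ≠ b := fun e => hc (e ▸ h)
  simp [eB, this.symm]
lemma vdeg_mem {B : Finset ℕ} {v : Var} (h : v.1 ∈ B) : vdeg v ∈ DS B :=
  add_mem (eB_mem h) (zsmul_mem (eT_mem B) _)

/-! ### the injective character `chi` -/

def prm (i : Option ℕ) : ℕ := Nat.nth Nat.Prime (i.elim 0 (· + 1))
lemma prm_prime (i : Option ℕ) : (prm i).Prime := Nat.prime_nth_prime _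
lemma prm_inj : Function.Injective prm := by
  intro i j h
  have := Nat.nth_injective Nat.infinite_setOfPred_prime h
  cases i <;> cases j <;> simp_all

def chiQ (d : D) : ℚ := d.prod fun i n => (prm i : ℚ) ^ n
lemma prmQ_ne (i : Option ℕ) : (prm i : ℚ) ≠ 0 := by exact_mod_cast (prm_prime i).ne_zero
lemma chiQ_add (d e : D) : chiQ (d + e) = chiQ d * chiQ e :=
  Finsupp.prod_add_index' (fun _ => zpow_zero _) (fun i _ _ => zpow_add₀ (prmQ_ne i) _ _)
lemma chiQ_ne (d : D) : chiQ d ≠ 0 :=
  Finset.prod_ne_zero_iff.2 fun i _ => zpow_ne_zero _ (prmQ_ne i)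
lemma val_chiQ (d : D) (j : Option ℕ) : padicValRat (prm j) (chiQ d) = d j := by
  have : Fact (prm j).Prime := ⟨prm_prime j⟩
  induction d using Finsupp.induction_linear with
  | zero => simp [chiQ]
  | add d e hd he => rw [chiQ_add, padicValRat.mul (chiQ_ne d) (chiQ_ne e), hd, he]; rfl
  | single i n =>
    have : chiQ (Finsupp.single i n) = (prm i : ℚ) ^ n := by
      unfold chiQ; rw [Finsupp.prod_single_index]; simp
    rw [this, padicValRat.zpow, padicValRat.of_nat]
    by_cases h : i = j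
    · subst h; simp
    · have : Fact (prm i).Prime := ⟨prm_prime i⟩
      rw [padicValNat_primes (fun e => h (prm_inj e).symm)]
      simp [h]

/-- an injective character of the grading group -/
def chi (d : D) : ℂ := (chiQ d : ℂ)
lemma chi_add (d e : D) : chi (d + e) = chi d * chi e := by simp [chi, chiQ_add]
@[simp] lemma chi_zero : chi 0 = 1 := by simp [chi, chiQ]
lemma chi_ne (d : D) : chi d ≠ 0 := by simp [chi, chiQ_ne]
lemma chi_neg (d : D) : chi (-d) = (chi d)⁻¹ :=
  eq_inv_of_mul_eq_one_left (by rw [← chi_add]; simp)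
lemma chi_sub (d e : D) : chi (d - e) = chi d * (chi e)⁻¹ := by
  rw [sub_eq_add_neg, chi_add, chi_neg]
lemma chi_inj : Function.Injective chi := by
  intro d e h
  have h' : chiQ d = chiQ e := by simpa [chi] using h
  ext j; rw [← val_chiQ d j, ← val_chiQ e j, h']

/-- the grading automorphism of `R` -/
def gamA : R →ₐ[ℂ] R := aeval fun v => C (chi (vdeg v)) * X v
/-- the grading automorphism as a ring hom -/
def gam : R →+* R := gamA.toRingHom
@[simp] lemma gam_X (v : Var) : gam (X v) = C (chi (vdeg v)) * X v := by simp [gam, gamA]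
@[simp] lemma gam_C (c : ℂ) : gam (C c) = C c := by simp [gam, gamA]
/-- the same torus element acting on points -/
def gpt (x : Pt) : Pt := fun v => chi (vdeg v) * x v
lemma eval_gam (x : Pt) (r : R) : eval x (gam r) = eval (gpt x) r := by
  induction r using MvPolynomial.induction_on with
  | C c => simp
  | add p q hp hq => simp [hp, hq]
  | mul_X p v hp => simp [hp, gpt]
/-- `r` is homogeneous of degree `d` -/
def Hmg (d : D) (r : R) : Prop := gam r = C (chi d) * r

/-- coordinate projection of points to the blocks `B` -/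
def restr (B : Finset ℕ) (x : Pt) : Pt := fun v => if v.1 ∈ B then x v else 0
/-- kill the variables outside the blocks `B` -/
def kill (B : Finset ℕ) : R →ₐ[ℂ] R := aeval fun v => if v.1 ∈ B then X v else 0
lemma eval_kill (B : Finset ℕ) (x : Pt) (r : R) : eval x (kill B r) = eval (restr B x) r := by
  induction r using MvPolynomial.induction_on with
  | C c => simp [kill]
  | add p q hp hq => simp [hp, hq]
  | mul_X p v hp => by_cases h : v.1 ∈ B <;> simp [hp, restr, h, kill] at *
lemma gam_kill (B : Finset ℕ) (r : R) : gam (kill B r) = kill B (gam r) := by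
  induction r using MvPolynomial.induction_on with
  | C c => simp [kill]
  | add p q hp hq => simp [hp, hq]
  | mul_X p v hp =>
    simp only [map_mul, hp, gam_X]
    by_cases h : v.1 ∈ B <;> simp [h, kill]

/-- every block of `B` has a non-zero coordinate -/
def Rel (B : Finset ℕ) (x : Pt) : Prop := ∀ b ∈ B, ∃ v : Var, v.1 = b ∧ x v ≠ 0

/-- A space: a closed torus-stable set of points of the multi-cone. -/
@[ext] structure Spc where
  B : Finset ℕ
  pts : Set Pt
  fin : ∃ V : Finset Var, (∀ v ∈ V, v.1 ∈ B) ∧ ∀ x ∈ pts, ∀ v ∉ V, x v = 0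
  rel : ∀ x ∈ pts, Rel B x
  closed : ∀ x, Rel B x → (∀ r : R, (∀ y ∈ pts, eval y r = 0) → eval x r = 0) → x ∈ pts
  inv : ∀ x ∈ pts, gpt x ∈ pts

/-- the ideal of a space -/
def Spc.I (X : Spc) : Ideal R where
  carrier := {r | ∀ x ∈ X.pts, eval x r = 0}
  add_mem' := by intro a b ha hb x hx; simp [ha x hx, hb x hx]
  zero_mem' := by intro x _; simp
  smul_mem' := by intro c a ha x hx; simp [ha x hx]
lemma Spc.mem_I {X : Spc} {r : R} : r ∈ X.I ↔ ∀ x ∈ X.pts, eval x r = 0 := Iff.rfl
lemma Spc.gam_mem_I {X : Spc} {r : R} (h : r ∈ X.I) : gam r ∈ X.I :=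
  fun x hx => by rw [eval_gam]; exact h _ (X.inv x hx)

/-- the coordinate projection maps `Y` to `X` (closed embedding when the blocks agree) -/
structure Proj (Y X : Spc) : Prop where
  sub : X.B ⊆ Y.B
  map : ∀ y ∈ Y.pts, restr X.B y ∈ X.pts

lemma Spc.restr_eq (X : Spc) {x : Pt} (hx : x ∈ X.pts) : restr X.B x = x := by
  obtain ⟨V, hV, h⟩ := X.fin
  funext v
  by_cases hv : v.1 ∈ X.B
  · simp [restr, hv]
  · simp [restr, hv, h x hx v (fun e => hv (hV v e))]
lemma restr_restr {B B' : Finset ℕ} (h : B ⊆ B') (x : Pt) : restr B (restr B' x) = restr B x := by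
  funext v; by_cases hv : v.1 ∈ B <;> simp [restr, hv]; exact fun h' => absurd (h hv) h'
lemma Proj.refl (X : Spc) : Proj X X := ⟨subset_rfl, fun y hy => by rwa [X.restr_eq hy]⟩
lemma Proj.trans {Z Y X : Spc} (h : Proj Z Y) (h' : Proj Y X) : Proj Z X :=
  ⟨h'.sub.trans h.sub, fun z hz => by rw [← restr_restr h'.sub]; exact h'.map _ (h.map z hz)⟩

/-- closed subspace -/
def Spc.Sub (Z X : Spc) : Prop := Z.B = X.B ∧ Z.pts ⊆ X.pts
lemma Spc.Sub.proj {Z X : Spc} (h : Z.Sub X) : Proj Z X :=
  ⟨h.1.ge, fun y hy => by rw [← h.1, Z.restr_eq hy]; exact h.2 hy⟩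

/-- irreducible: the ideal is prime -/
def Spc.Irred (X : Spc) : Prop := X.I.IsPrime
/-- connected -/
def Spc.Conn (X : Spc) : Prop := X.pts.Nonempty ∧ ∀ Z₁ Z₂ : Spc, Z₁.Sub X → Z₂.Sub X →
  X.pts ⊆ Z₁.pts ∪ Z₂.pts → Disjoint Z₁.pts Z₂.pts → Z₁.pts = ∅ ∨ Z₂.pts = ∅
/-- `T` acts trivially: every block is supported on variables of one weight -/
def Spc.TTriv (X : Spc) (w : ℕ → ℤ) : Prop := ∀ x ∈ X.pts, ∀ v : Var, x v ≠ 0 → v.2.2 = w v.1

/-! ### graded modules -/

/-- noetherian graded modules; the grading is the eigen-decomposition of `g` -/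
structure GM where
  M : Type
  [acg : AddCommGroup M]
  [mod : Module R M]
  [noeth : IsNoetherian R M]
  fin : ∃ V : Finset Var, ∀ v ∉ V, ∀ m : M, (X v : R) • m = 0
  g : M →ₛₗ[gam] M
  diag : ∀ m : M, m ∈ AddSubgroup.closure {m : M | ∃ d : D, g m = (C (chi d) : R) • m}

attribute [instance] GM.acg GM.mod GM.noeth

namespace GM
instance (M : GM) : Module ℂ M.M := Module.compHom M.M (algebraMap ℂ R)
lemma c_smul (M : GM) (c : ℂ) (m : M.M) : c • m = (C c : R) • m := rfl
instance (M : GM) : IsScalarTower ℂ R M.M :=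
  ⟨fun c r m => by rw [c_smul, ← mul_smul, MvPolynomial.smul_eq_C_mul]⟩

/-- the homogeneous elements of degree `d` -/
def gr (M : GM) (d : D) : Submodule ℂ M.M where
  carrier := {m | M.g m = (C (chi d) : R) • m}
  add_mem' := by intro a b ha hb; simp only [Set.mem_ofPred_eq, map_add, smul_add] at *; rw [ha, hb]
  zero_mem' := by simp
  smul_mem' := by
    intro c m hm
    simp only [Set.mem_ofPred_eq, c_smul, LinearMap.map_smulₛₗ, gam_C] at *
    rw [hm, smul_comm]
lemma mem_gr {M : GM} {d : D} {m : M.M} : m ∈ M.gr d ↔ M.g m = (C (chi d) : R) • m := Iff.rfl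

/-- degree-preserving linear maps -/
def Deg0 {M N : GM} (f : M.M →ₗ[R] N.M) : Prop := ∀ m, f (M.g m) = N.g (f m)
/-- graded submodules -/
def Stab (M : GM) (N : Submodule R M.M) : Prop := ∀ m ∈ N, M.g m ∈ N
/-- `M` vanishes near the point `x` -/
def Kill (M : GM) (x : Pt) : Prop := ∃ r : R, eval x r ≠ 0 ∧ ∀ m : M.M, r • m = 0
/-- all degrees of `M` live in the blocks `B` -/
def DegIn (M : GM) (B : Finset ℕ) : Prop := ∀ d, d ∉ DS B → M.gr d = ⊥
/-- `M` is (set-theoretically) supported on `X` -/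
structure On (M : GM) (X : Spc) : Prop where
  deg : M.DegIn X.B
  supp : ∀ x, Rel X.B x → x ∉ X.pts → M.Kill x
/-- `M` is a module over the reduced space `X` -/
structure Red (M : GM) (X : Spc) : Prop where
  deg : M.DegIn X.B
  ann : ∀ r ∈ X.I, ∀ m : M.M, r • m = 0
/-- irrelevant modules -/
def Irr (M : GM) (X : Spc) : Prop := ∀ x ∈ X.pts, M.Kill x
lemma Red.on {M : GM} {X : Spc} (h : M.Red X) : M.On X :=
  ⟨h.deg, fun x hx hn => by
    by_contra hk
    refine hn (X.closed x hx fun r hr => ?_)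
    by_contra h0
    exact hk ⟨r, h0, h.ann r hr⟩⟩

/-- short exact sequences of graded modules -/
def SES (A B C : GM) : Prop := ∃ (f : A.M →ₗ[R] B.M) (p : B.M →ₗ[R] C.M), Deg0 f ∧ Deg0 p ∧
  Function.Injective f ∧ Function.Exact f p ∧ Function.Surjective p
/-- sequences that are short exact near every point of `X` -/
def LocSES (X : Spc) (A B C : GM) : Prop := ∃ (f : A.M →ₗ[R] B.M) (p : B.M →ₗ[R] C.M),
  Deg0 f ∧ Deg0 p ∧ (∀ a, p (f a) = 0) ∧ ∀ x ∈ X.pts, ∃ r : R, eval x r ≠ 0 ∧
    (∀ a, f a = 0 → r • a = 0) ∧ (∀ b, p b = 0 → ∃ a, f a = r • b) ∧ ∀ c, ∃ b, p b = r • c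

/-- the twist `M(d)`, `M(d)_e = M_(e+d)` -/
def shift (M : GM) (d : D) : GM where
  M := M.M
  fin := M.fin
  g := { toFun := fun m => (C (chi (-d)) : R) • M.g m
         map_add' := by intro a b; simp
         map_smul' := by intro r m; simp only [LinearMap.map_smulₛₗ]; rw [smul_comm] }
  diag := fun m => by
    refine AddSubgroup.closure_mono ?_ (M.diag m)
    rintro m ⟨e, he⟩
    refine ⟨-d + e, ?_⟩
    simp only [LinearMap.coe_mk, AddHom.coe_mk, he, chi_add, map_mul, mul_smul]
end GM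

/-- the relations of `G X` -/
def GRel (X : Spc) : Set (FreeAbelianGroup {M : GM // M.On X}) :=
  {z | (∃ A B C : {M : GM // M.On X}, GM.SES A.1 B.1 C.1 ∧
      z = .of B - .of A - .of C) ∨ ∃ A : {M : GM // M.On X}, A.1.Irr X ∧ z = .of A}
/-- equivariant G-theory of `X` -/
def G (X : Spc) : Type 1 := FreeAbelianGroup {M : GM // M.On X} ⧸ AddSubgroup.closure (GRel X)
instance (X : Spc) : AddCommGroup (G X) :=
  inferInstanceAs (AddCommGroup (_ ⧸ AddSubgroup.closure (GRel X)))
open Classical in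
/-- the class of a module (`0` if it is not supported on `X`) -/
def cl (X : Spc) (M : GM) : G X :=
  if h : M.On X then (QuotientAddGroup.mk (FreeAbelianGroup.of ⟨M, h⟩) :
    _ ⧸ AddSubgroup.closure (GRel X)) else 0

/-! ### bundles -/

/-- the linear map given by a polynomial matrix at a point -/
def mev {ι κ : Type} [Fintype ι] (x : Pt) (Φ : Matrix κ ι R) : (ι → ℂ) →ₗ[ℂ] (κ → ℂ) :=
  (Φ.map (eval x)).mulVecLin
/-- a matrix of degree zero `⊕ O(a i) → ⊕ O(b j)` -/
def MHmg {ι κ : Type} (a : ι → D) (b : κ → D) (Φ : Matrix κ ι R) : Prop :=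
  ∀ j i, Hmg (b j - a i) (Φ j i)
/-- locally on `X` there is a polynomial projector onto `L` -/
def IsAlg (X : Spc) {ι : Type} [Fintype ι] (L : Pt → Submodule ℂ (ι → ℂ)) : Prop :=
  ∀ x ∈ X.pts, ∃ (r : R) (P : Matrix ι ι R), eval x r ≠ 0 ∧ ∀ y ∈ X.pts,
    (∀ v, mev y P v ∈ L y) ∧ ∀ v ∈ L y, mev y P v = eval y r • v
/-- equivariance of a family of subspaces of `⊕ O(deg i)` -/
def IsEqv (X : Spc) {ι : Type} (deg : ι → D) (L : Pt → Submodule ℂ (ι → ℂ)) : Prop :=
  ∀ x ∈ X.pts, ∀ v : ι → ℂ, v ∈ L x ↔ (fun i => chi (deg i) * v i) ∈ L (gpt x)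

/-- a bundle: an algebraic equivariant family of subspaces of `⊕ O(deg i)` -/
structure Bun (X : Spc) where
  ι : Type
  [fin : Fintype ι]
  [dec : DecidableEq ι]
  deg : ι → D
  hdeg : ∀ i, deg i ∈ DS X.B
  L : Pt → Submodule ℂ (ι → ℂ)
  eqv : IsEqv X deg L
  alg : IsAlg X L

attribute [instance] Bun.fin Bun.dec

namespace Bun
variable {X : Spc}
/-- constant rank -/
def Rk (A : Bun X) (n : ℕ) : Prop := ∀ x ∈ X.pts, Module.finrank ℂ (A.L x) = n
/-- polynomial sections -/
def IsSec (A : Bun X) (s : A.ι → R) : Prop := ∀ x ∈ X.pts, (fun i => eval x (s i)) ∈ A.L x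
/-- polynomial covectors killing the family -/
def IsCov (A : Bun X) (a : A.ι → R) : Prop :=
  ∀ x ∈ X.pts, ∀ v ∈ A.L x, ∑ i, eval x (a i) * v i = 0
/-- short exact sequence induced by polynomial matrices of degree zero -/
def SES (A B C : Bun X) : Prop := ∃ (f : Matrix B.ι A.ι R) (p : Matrix C.ι B.ι R),
  MHmg A.deg B.deg f ∧ MHmg B.deg C.deg p ∧ ∀ x ∈ X.pts,
    A.L x ⊓ LinearMap.ker (mev x f) = ⊥ ∧
    (A.L x).map (mev x f) = B.L x ⊓ LinearMap.ker (mev x p) ∧ (B.L x).map (mev x p) = C.L x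
/-- all ambient degrees have normalised T-weight `k` on a T-trivial space with block weights `w` -/
def Pure (A : Bun X) (w : ℕ → ℤ) (k : ℤ) : Prop :=
  ∀ i, A.deg i none = k + ∑ b ∈ X.B, w b * A.deg i (some b)
/-- all ambient degrees agree with `δ` up to T-weights -/
def Unif (A : Bun X) (δ : D) : Prop := ∀ i b, A.deg i (some b) = δ (some b)
end Bun

def KRel (X : Spc) : Set (FreeAbelianGroup (Bun X)) :=
  {z | ∃ A B C : Bun X, Bun.SES A B C ∧ z = .of B - .of A - .of C}
/-- Grothendieck group of bundles -/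
def K (X : Spc) : Type 1 := FreeAbelianGroup (Bun X) ⧸ AddSubgroup.closure (KRel X)
instance (X : Spc) : AddCommGroup (K X) :=
  inferInstanceAs (AddCommGroup (_ ⧸ AddSubgroup.closure (KRel X)))
/-- the class of a bundle -/
def Bun.kl {X : Spc} (A : Bun X) : K X :=
  (QuotientAddGroup.mk (FreeAbelianGroup.of A) : _ ⧸ AddSubgroup.closure (KRel X))

/-! ### tangent spaces, dimension, cone condition -/

/-- derivative of `r` at `x` in the direction `ξ` -/
def dAt (x ξ : Pt) (r : R) : ℂ := eval x (mkDerivation ℂ (fun v => (C (ξ v) : R)) r)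
@[simp] lemma dAt_C (x ξ : Pt) (c : ℂ) : dAt x ξ (C c) = 0 := by simp [dAt]
@[simp] lemma dAt_X (x ξ : Pt) (v : Var) : dAt x ξ (X v) = ξ v := by simp [dAt]
@[simp] lemma dAt_zero (x ξ : Pt) : dAt x ξ 0 = 0 := by simp [dAt]
lemma dAt_add (x ξ : Pt) (r s : R) : dAt x ξ (r + s) = dAt x ξ r + dAt x ξ s := by simp [dAt]
lemma dAt_mul (x ξ : Pt) (r s : R) :
    dAt x ξ (r * s) = eval x r * dAt x ξ s + eval x s * dAt x ξ r := by simp [dAt]
lemma dAt_dir_add (x ξ η : Pt) (r : R) : dAt x (ξ + η) r = dAt x ξ r + dAt x η r := by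
  induction r using MvPolynomial.induction_on with
  | C c => simp
  | add p q hp hq => simp only [dAt_add, hp, hq]; ring
  | mul_X p v hp => simp only [dAt_mul, hp, dAt_X, Pi.add_apply]; ring
lemma dAt_dir_smul (x ξ : Pt) (c : ℂ) (r : R) : dAt x (c • ξ) r = c * dAt x ξ r := by
  induction r using MvPolynomial.induction_on with
  | C c => simp
  | add p q hp hq => simp only [dAt_add, hp, hq]; ring
  | mul_X p v hp => simp only [dAt_mul, hp, dAt_X, Pi.smul_apply, smul_eq_mul]; ring
/-- the maximal ideal of a point -/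
def mx (x : Pt) : Ideal R := RingHom.ker (eval x)
lemma mem_mx {x : Pt} {r : R} : r ∈ mx x ↔ eval x r = 0 := Iff.rfl
/-- tangent space of the affine scheme `V(J)` at `x` -/
def TanI (J : Ideal R) (x : Pt) : Submodule ℂ Pt where
  carrier := {ξ | ∀ r ∈ J, dAt x ξ r = 0}
  add_mem' := by intro a b ha hb r hr; rw [dAt_dir_add, ha r hr, hb r hr, add_zero]
  zero_mem' := by
    intro r _
    have := dAt_dir_smul x 0 0 r
    simpa using this
  smul_mem' := by intro c a ha r hr; rw [dAt_dir_smul, ha r hr, mul_zero]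
/-- tangent space of the cone over `X` -/
def Spc.Tan (X : Spc) (x : Pt) : Submodule ℂ Pt := TanI X.I x
/-- dimension of the cone over `X` at `x` (projective dimension + number of blocks) -/
def Spc.ldim (X : Spc) (x : Pt) : ℕ∞ := ((mx x).map (Ideal.Quotient.mk X.I)).height
/-- smooth point -/
def Spc.SmAt (X : Spc) (x : Pt) : Prop := (Module.finrank ℂ (X.Tan x) : ℕ∞) ≤ X.ldim x
/-- `X` is smooth with cone dimension `n` at every point -/
def Spc.Sm (X : Spc) (n : ℕ) : Prop :=
  ∀ x ∈ X.pts, Module.finrank ℂ (X.Tan x) = n ∧ X.ldim x = n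

/-- Zero locus data: `Q ⊆ W` is the zero set of the degree-zero section `s` of `⊕ O(deg i)`, and the
normal cone lies in the bundle `E`: every covector killing `E x` is the value of a syzygy. -/
structure Cone (W Q : Spc) (E : Bun Q) (s : E.ι → R) : Prop where
  sub : Q.Sub W
  hmg : ∀ i, Hmg (E.deg i) (s i)
  zero : ∀ x ∈ W.pts, x ∈ Q.pts ↔ ∀ i, eval x (s i) = 0
  syz : ∀ x ∈ Q.pts, ∀ a : E.ι → ℂ, (∀ v ∈ E.L x, ∑ i, a i * v i = 0) →
    ∃ μ : E.ι → R, (∀ i, eval x (μ i) = a i) ∧ ∑ i, μ i * s i ∈ W.I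

end Crest.Agent.N265
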